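import Mathlib
import Crest.Prelude.Def_Shuffle
import Crest.Agent.Helper13.Shuffle.Basic
import Crest.Agent.Helper3.Shuffle.Conv

/-!
helper80: the swap-distance end game for row 155 (S0222), formalising helper90's "Corollary A"
(`notes/s0222/helper90_wswap.md`).  Nothing here proves S0222: the statements are conditional on
the swap bound (WSWAP), which is not proved by anybody.

* `rd φ σ` : the `L¹` distance between a function `φ` on a finite group and its right translate;
* `rd_conv_le` : "blocks multiply" for a convolution and an involution `τ` (analytic proof);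
* `rd_le_card_support`, `sum_abs_dev_le` : distance from the mean `≤ (number of points) * (swap bound)`;
* `swapDist m t σ` : total variation distance between the law after `t` shuffles and its translate
  (the two decks differ by the permutation `σ` of the starting positions);
* `SwapBound m t a` : every transposition has swap distance `≤ a` after `t` shuffles;
* `swapBound_add`, `swapBound_mul`, `tv_le_of_swapBound`, `s0222_of_wswap` : the end game;
* `swapDist_le_of_injOn` : a partial injective re-routing of bit tables gives a swap bound.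
-/

set_option autoImplicit false

namespace Crest.Agent.Helper80.Shuffle

open Crest.ProbabilityR.Shuffle Crest.Agent.Helper13.Shuffle Crest.Agent.Helper3.Shuffle

/-! ### Generic lemmas on a finite group -/

section Generic

variable {G : Type*} [Group G] [Fintype G]

/-- The `L¹` distance between `φ` and its right translate by `σ`. -/
noncomputable def rd (φ : G → ℝ) (σ : G) : ℝ := ∑ g : G, |φ (g * σ) - φ g|

theorem rd_nonneg (φ : G → ℝ) (σ : G) : 0 ≤ rd φ σ :=
  Finset.sum_nonneg (fun _ _ => abs_nonneg _)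

theorem rd_one (φ : G → ℝ) : rd φ 1 = 0 := by
  unfold rd
  simp

theorem rd_mul_le (φ : G → ℝ) (σ σ' : G) : rd φ (σ * σ') ≤ rd φ σ + rd φ σ' := by
  have h1 : ∑ g : G, |φ (g * σ * σ') - φ (g * σ)| = rd φ σ' :=
    Equiv.sum_comp (Equiv.mulRight σ) (fun g => |φ (g * σ') - φ g|)
  calc rd φ (σ * σ') = ∑ g : G, |φ (g * (σ * σ')) - φ g| := rfl
    _ ≤ ∑ g : G, (|φ (g * σ) - φ g| + |φ (g * σ * σ') - φ (g * σ)|) := by
        apply Finset.sum_le_sum
        intro g _
        have e : φ (g * (σ * σ')) - φ g =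
            (φ (g * σ) - φ g) + (φ (g * σ * σ') - φ (g * σ)) := by
          rw [mul_assoc]
          ring
        rw [e]
        exact abs_add_le _ _
    _ = rd φ σ + rd φ σ' := by
        rw [Finset.sum_add_distrib, h1]
        rfl

/-- If every right translate is within `B` of `φ` in `L¹`, then `φ` is within `B` of its mean. -/
theorem avg_dev_le (φ : G → ℝ) (B : ℝ) (hB : ∀ σ : G, rd φ σ ≤ B) :
    ∑ g : G, |φ g - (∑ h : G, φ h) / (Fintype.card G : ℝ)| ≤ B := by
  have hN : (0 : ℝ) < (Fintype.card G : ℝ) := by exact_mod_cast Fintype.card_pos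
  have h1 : ∀ g : G, φ g - (∑ h : G, φ h) / (Fintype.card G : ℝ) =
      (∑ σ : G, (φ g - φ (g * σ))) / (Fintype.card G : ℝ) := by
    intro g
    have h2 : ∑ σ : G, φ (g * σ) = ∑ h : G, φ h := Equiv.sum_comp (Equiv.mulLeft g) φ
    rw [Finset.sum_sub_distrib, h2, Finset.sum_const, Finset.card_univ, nsmul_eq_mul]
    field_simp
  have h3 : ∀ g : G, |φ g - (∑ h : G, φ h) / (Fintype.card G : ℝ)| ≤
      (∑ σ : G, |φ (g * σ) - φ g|) / (Fintype.card G : ℝ) := by
    intro g
    rw [h1 g, abs_div, abs_of_pos hN]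
    apply div_le_div_of_nonneg_right _ hN.le
    refine (Finset.abs_sum_le_sum_abs _ _).trans (le_of_eq ?_)
    apply Finset.sum_congr rfl
    intro σ _
    rw [abs_sub_comm]
  calc ∑ g : G, |φ g - (∑ h : G, φ h) / (Fintype.card G : ℝ)|
      ≤ ∑ g : G, (∑ σ : G, |φ (g * σ) - φ g|) / (Fintype.card G : ℝ) :=
        Finset.sum_le_sum (fun g _ => h3 g)
    _ = (∑ σ : G, rd φ σ) / (Fintype.card G : ℝ) := by
        rw [← Finset.sum_div, Finset.sum_comm]
        rfl
    _ ≤ (∑ _σ : G, B) / (Fintype.card G : ℝ) := by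
        apply div_le_div_of_nonneg_right _ hN.le
        exact Finset.sum_le_sum (fun σ _ => hB σ)
    _ = B := by
        rw [Finset.sum_const, Finset.card_univ, nsmul_eq_mul]
        field_simp

/-- "Blocks multiply", generic form: if `χ = φ * ψ` (convolution, `ψ` acting last), `τ` is an
involution and all conjugates of `τ` move `ψ` by at most `B` in `L¹`, then `τ` moves `χ` by at
most `(1/2) * rd φ τ * B`. -/
theorem rd_conv_le (φ ψ χ : G → ℝ) (hχ : ∀ g, χ g = ∑ h : G, φ h * ψ (g * h⁻¹))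
    (τ : G) (hτ : τ * τ = 1) (B : ℝ) (hB : ∀ h : G, rd ψ (h * τ * h⁻¹) ≤ B) :
    rd χ τ ≤ (1 / 2) * rd φ τ * B := by
  have hτinv : τ⁻¹ = τ := inv_eq_of_mul_eq_one_left hτ
  have h1 : ∀ g : G, χ (g * τ) - χ g = ∑ h : G, (φ (h * τ) - φ h) * ψ (g * h⁻¹) := by
    intro g
    rw [hχ, hχ]
    have e : ∑ h : G, φ h * ψ (g * τ * h⁻¹) = ∑ h : G, φ (h * τ) * ψ (g * h⁻¹) := by
      rw [← Equiv.sum_comp (Equiv.mulRight τ) (fun h => φ h * ψ (g * τ * h⁻¹))]
      apply Finset.sum_congr rfl
      intro h _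
      have e2 : g * τ * (h * τ)⁻¹ = g * h⁻¹ := by
        rw [mul_inv_rev, hτinv, mul_assoc, ← mul_assoc τ τ, hτ, one_mul]
      simp only [Equiv.coe_mulRight]
      rw [e2]
    rw [e, ← Finset.sum_sub_distrib]
    apply Finset.sum_congr rfl
    intro h _
    ring
  have h2 : ∀ g : G, ∑ h : G, (φ (h * τ) - φ h) * ψ (g * h⁻¹) =
      - ∑ h : G, (φ (h * τ) - φ h) * ψ (g * τ * h⁻¹) := by
    intro g
    rw [← Equiv.sum_comp (Equiv.mulRight τ) (fun h => (φ (h * τ) - φ h) * ψ (g * h⁻¹)),
      ← Finset.sum_neg_distrib]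
    apply Finset.sum_congr rfl
    intro h _
    have e1 : h * τ * τ = h := by rw [mul_assoc, hτ, mul_one]
    have e2 : g * (h * τ)⁻¹ = g * τ * h⁻¹ := by rw [mul_inv_rev, hτinv, mul_assoc]
    simp only [Equiv.coe_mulRight]
    rw [e1, e2]
    ring
  have h3 : ∀ g : G, χ (g * τ) - χ g =
      (1 / 2) * ∑ h : G, (φ (h * τ) - φ h) * (ψ (g * h⁻¹) - ψ (g * τ * h⁻¹)) := by
    intro g
    have a := h1 g
    have b := h2 g
    have c : ∑ h : G, (φ (h * τ) - φ h) * (ψ (g * h⁻¹) - ψ (g * τ * h⁻¹)) =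
        ∑ h : G, (φ (h * τ) - φ h) * ψ (g * h⁻¹) -
          ∑ h : G, (φ (h * τ) - φ h) * ψ (g * τ * h⁻¹) := by
      rw [← Finset.sum_sub_distrib]
      apply Finset.sum_congr rfl
      intro h _
      ring
    rw [c, a]
    linarith
  have h4 : ∀ h : G, ∑ g : G, |ψ (g * τ * h⁻¹) - ψ (g * h⁻¹)| = rd ψ (h * τ * h⁻¹) := by
    intro h
    unfold rd
    rw [← Equiv.sum_comp (Equiv.mulRight h⁻¹) (fun g => |ψ (g * (h * τ * h⁻¹)) - ψ g|)]
    apply Finset.sum_congr rfl
    intro g _
    have e1 : g * h⁻¹ * (h * τ * h⁻¹) = g * τ * h⁻¹ := by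
      simp [mul_assoc]
    simp only [Equiv.coe_mulRight]
    rw [e1]
  calc rd χ τ = ∑ g : G, |χ (g * τ) - χ g| := rfl
    _ ≤ ∑ g : G, (1 / 2) * ∑ h : G, |φ (h * τ) - φ h| * |ψ (g * τ * h⁻¹) - ψ (g * h⁻¹)| := by
        apply Finset.sum_le_sum
        intro g _
        rw [h3 g, abs_mul, abs_of_pos (by norm_num : (0 : ℝ) < 1 / 2)]
        apply mul_le_mul_of_nonneg_left _ (by norm_num)
        refine (Finset.abs_sum_le_sum_abs _ _).trans (le_of_eq ?_)
        apply Finset.sum_congr rfl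
        intro h _
        rw [abs_mul, abs_sub_comm (ψ (g * h⁻¹))]
    _ = (1 / 2) * ∑ h : G, |φ (h * τ) - φ h| * ∑ g : G, |ψ (g * τ * h⁻¹) - ψ (g * h⁻¹)| := by
        rw [← Finset.mul_sum, Finset.sum_comm]
        congr 1
        apply Finset.sum_congr rfl
        intro h _
        rw [Finset.mul_sum]
    _ = (1 / 2) * ∑ h : G, |φ (h * τ) - φ h| * rd ψ (h * τ * h⁻¹) := by
        congr 1
        apply Finset.sum_congr rfl
        intro h _
        rw [h4 h]
    _ ≤ (1 / 2) * ∑ h : G, |φ (h * τ) - φ h| * B := by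
        apply mul_le_mul_of_nonneg_left _ (by norm_num)
        apply Finset.sum_le_sum
        intro h _
        exact mul_le_mul_of_nonneg_left (hB h) (abs_nonneg _)
    _ = (1 / 2) * rd φ τ * B := by
        rw [← Finset.sum_mul]
        unfold rd
        ring

end Generic

/-! ### Permutations: every permutation is a product of at most `card` transpositions -/

section Perm

variable {α : Type*} [DecidableEq α] [Fintype α]

theorem rd_le_card_support (φ : Equiv.Perm α → ℝ) (B : ℝ) (hB0 : 0 ≤ B)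
    (hB : ∀ x y : α, x ≠ y → rd φ (Equiv.swap x y) ≤ B) :
    ∀ (k : ℕ) (f : Equiv.Perm α), f.support.card ≤ k → rd φ f ≤ k * B
  | 0, f, hf => by
      have h1 : f = 1 := by
        rw [← Equiv.Perm.card_support_eq_zero]
        omega
      rw [h1, rd_one]
      simp
  | k + 1, f, hf => by
      by_cases h1 : f = 1
      · rw [h1, rd_one]
        positivity
      · obtain ⟨x, hx⟩ : ∃ x, f x ≠ x := by
          by_contra hcon
          exact h1 (Equiv.ext (fun z => by
            by_contra hz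
            exact hcon ⟨z, hz⟩))
        have hlt := Equiv.Perm.card_support_swap_mul hx
        have hrec := rd_le_card_support φ B hB0 hB k (Equiv.swap x (f x) * f) (by omega)
        have hdecomp : f = Equiv.swap x (f x) * (Equiv.swap x (f x) * f) :=
          (Equiv.swap_mul_self_mul _ _ _).symm
        calc rd φ f = rd φ (Equiv.swap x (f x) * (Equiv.swap x (f x) * f)) :=
              congrArg (rd φ) hdecomp
          _ ≤ rd φ (Equiv.swap x (f x)) + rd φ (Equiv.swap x (f x) * f) := rd_mul_le _ _ _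
          _ ≤ B + k * B := add_le_add (hB x (f x) (Ne.symm hx)) hrec
          _ = ((k + 1 : ℕ) : ℝ) * B := by
              push_cast
              ring

theorem sum_abs_dev_le (φ : Equiv.Perm α → ℝ) (B : ℝ) (hB0 : 0 ≤ B)
    (hB : ∀ x y : α, x ≠ y → rd φ (Equiv.swap x y) ≤ B) :
    ∑ g : Equiv.Perm α,
        |φ g - (∑ h : Equiv.Perm α, φ h) / (Fintype.card (Equiv.Perm α) : ℝ)|
      ≤ (Fintype.card α : ℝ) * B := by
  apply avg_dev_le
  intro σ
  exact rd_le_card_support φ B hB0 hB (Fintype.card α) σ (Finset.card_le_univ _)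

omit [Fintype α] in
theorem conj_swap (h : Equiv.Perm α) (x y : α) :
    h * Equiv.swap x y * h⁻¹ = Equiv.swap (h x) (h y) := by
  rw [Equiv.mul_swap_eq_swap_mul, mul_inv_cancel_right]

end Perm

/-! ### The swap distance of the shuffle -/

/-- Total variation distance between the law after `t` shuffles and the law after `t` shuffles of
the deck whose starting positions were permuted by `σ`. -/
noncomputable def swapDist (m t : ℕ) (σ : Equiv.Perm (Fin (2 * m))) : ℝ :=
  (1 / 2) * rd (law m t) σ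

theorem swapDist_nonneg (m t : ℕ) (σ : Equiv.Perm (Fin (2 * m))) : 0 ≤ swapDist m t σ :=
  mul_nonneg (by norm_num) (rd_nonneg _ _)

/-- (WSWAP) with constant `a`: after `t` shuffles every transposition of two starting positions is
absorbed up to total variation `a`. -/
def SwapBound (m t : ℕ) (a : ℝ) : Prop :=
  ∀ x y : Fin (2 * m), x ≠ y → swapDist m t (Equiv.swap x y) ≤ a

/-- Blocks multiply (helper90, Lemma 1). -/
theorem swapBound_add (m s t : ℕ) (a b : ℝ) (ha : SwapBound m s a) (hb : SwapBound m t b) :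
    SwapBound m (s + t) (a * b) := by
  intro x y hxy
  have hb0 : 0 ≤ b := (swapDist_nonneg m t _).trans (hb x y hxy)
  have hconj : ∀ h : Equiv.Perm (Fin (2 * m)),
      rd (law m t) (h * Equiv.swap x y * h⁻¹) ≤ 2 * b := by
    intro h
    rw [conj_swap]
    have hne : h x ≠ h y := fun e => hxy (h.injective e)
    have := hb (h x) (h y) hne
    unfold swapDist at this
    linarith
  have hmain := rd_conv_le (law m s) (law m t) (law m (s + t)) (fun g => law_add m s t g)
    (Equiv.swap x y) (Equiv.swap_mul_self x y) (2 * b) hconj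
  have ha' := ha x y hxy
  unfold swapDist at ha' ⊢
  have h5 : (1 / 2) * rd (law m s) (Equiv.swap x y) * b ≤ a * b :=
    mul_le_mul_of_nonneg_right ha' hb0
  calc (1 / 2) * rd (law m (s + t)) (Equiv.swap x y)
      ≤ (1 / 2) * ((1 / 2) * rd (law m s) (Equiv.swap x y) * (2 * b)) :=
        mul_le_mul_of_nonneg_left hmain (by norm_num)
    _ = (1 / 2) * rd (law m s) (Equiv.swap x y) * b := by ring
    _ ≤ a * b := h5

theorem swapBound_mul (m t : ℕ) (a : ℝ) (ha : SwapBound m t a) :
    ∀ k : ℕ, SwapBound m ((k + 1) * t) (a ^ (k + 1))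
  | 0 => by simpa using ha
  | k + 1 => by
      have e : (k + 1 + 1) * t = (k + 1) * t + t := by ring
      rw [e, pow_succ]
      exact swapBound_add m _ t _ a (swapBound_mul m t a ha k) ha

/-- helper90, Lemma 2 (= helper57 L6(i)), with `2 m` instead of `2 m - 1`. -/
theorem tv_le_of_swapBound (m t : ℕ) (a : ℝ) (ha0 : 0 ≤ a) (ha : SwapBound m t a) :
    tvFromUniform m t ≤ (2 * m : ℝ) * a := by
  rw [tv_eq]
  have hcard : (Fintype.card (Equiv.Perm (Fin (2 * m))) : ℝ) = N m := by
    unfold N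
    rw [Fintype.card_perm, Fintype.card_fin]
  have h1 := sum_abs_dev_le (law m t) (2 * a) (by linarith)
    (fun x y hxy => by
      have := ha x y hxy
      unfold swapDist at this
      linarith)
  rw [sum_law, hcard, Fintype.card_fin] at h1
  have h2 : ∑ g : Equiv.Perm (Fin (2 * m)), |dev m t g| ≤ ((2 * m : ℕ) : ℝ) * (2 * a) := h1
  push_cast at h2
  linarith

open Filter in
/-- The end game (helper90, Corollary A): if for one `j0` every transposition is absorbed by `j0`
passes up to `ε d`, and `n * ε ^ (k+1) → 0` with `(k+1) * j0 ≤ 1600`, then S0222 holds. -/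
theorem s0222_of_wswap (j0 k : ℕ) (hk : (k + 1) * j0 ≤ 1600) (ε : ℕ → ℝ)
    (hε0 : ∀ d, 0 ≤ ε d)
    (H : ∀ᶠ d in atTop, SwapBound (2 ^ d) (j0 * (d + 1)) (ε d))
    (hlim : Tendsto (fun d : ℕ => (2 * (2 : ℝ) ^ d) * ε d ^ (k + 1)) atTop (nhds 0)) :
    Tendsto (fun d : ℕ => tvFromUniform (2 ^ d) (1600 * (d + 1))) atTop (nhds 0) := by
  refine tendsto_of_tendsto_of_tendsto_of_le_of_le' tendsto_const_nhds hlim
    (Eventually.of_forall (fun d => tv_nonneg _ _)) ?_
  filter_upwards [H] with d hd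
  have h1 : SwapBound (2 ^ d) ((k + 1) * (j0 * (d + 1))) (ε d ^ (k + 1)) :=
    swapBound_mul (2 ^ d) (j0 * (d + 1)) (ε d) hd k
  have h2 := tv_le_of_swapBound (2 ^ d) ((k + 1) * (j0 * (d + 1))) (ε d ^ (k + 1))
    (pow_nonneg (hε0 d) _) h1
  have h3 : (k + 1) * (j0 * (d + 1)) ≤ 1600 * (d + 1) := by
    rw [← mul_assoc]
    exact Nat.mul_le_mul_right (d + 1) hk
  have h4 := tv_antitone (2 ^ d) h3
  have h5 : ((2 : ℝ) * ((2 ^ d : ℕ) : ℝ)) = 2 * (2 : ℝ) ^ d := by push_cast; ring
  calc tvFromUniform (2 ^ d) (1600 * (d + 1))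
      ≤ tvFromUniform (2 ^ d) ((k + 1) * (j0 * (d + 1))) := h4
    _ ≤ (2 * ((2 ^ d : ℕ) : ℝ)) * ε d ^ (k + 1) := h2
    _ = (2 * (2 : ℝ) ^ d) * ε d ^ (k + 1) := by rw [h5]

open Filter in
/-- Polynomial form of the end game: a swap bound `n ^ (-c0)` after `j0` passes with
`c0 * (k+1) > 1`, `(k+1) * j0 ≤ 1600`, gives S0222 (`n = 2 * 2 ^ d`). -/
theorem s0222_of_wswap_rpow (j0 k : ℕ) (hk : (k + 1) * j0 ≤ 1600) (c0 : ℝ)
    (hc : 1 < c0 * ((k : ℝ) + 1))
    (H : ∀ᶠ d in atTop, SwapBound (2 ^ d) (j0 * (d + 1)) ((2 * (2 : ℝ) ^ d) ^ (-c0))) :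
    Tendsto (fun d : ℕ => tvFromUniform (2 ^ d) (1600 * (d + 1))) atTop (nhds 0) := by
  have hn : ∀ d : ℕ, (0 : ℝ) < 2 * (2 : ℝ) ^ d := fun d => by positivity
  refine s0222_of_wswap j0 k hk (fun d => (2 * (2 : ℝ) ^ d) ^ (-c0))
    (fun d => Real.rpow_nonneg (hn d).le _) H ?_
  set γ : ℝ := c0 * ((k : ℝ) + 1) - 1 with hγ
  have hγpos : 0 < γ := by rw [hγ]; linarith
  have e : ∀ d : ℕ, (2 * (2 : ℝ) ^ d) * ((2 * (2 : ℝ) ^ d) ^ (-c0)) ^ (k + 1) =
      (2 * (2 : ℝ) ^ d) ^ (-γ) := by
    intro d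
    have h1 : ((2 * (2 : ℝ) ^ d) ^ (-c0)) ^ (k + 1) = (2 * (2 : ℝ) ^ d) ^ (-c0 * ((k : ℝ) + 1)) := by
      rw [← Real.rpow_natCast, ← Real.rpow_mul (hn d).le]
      push_cast
      rfl
    rw [h1]
    have h2 : (2 * (2 : ℝ) ^ d) * (2 * (2 : ℝ) ^ d) ^ (-c0 * ((k : ℝ) + 1)) =
        (2 * (2 : ℝ) ^ d) ^ ((1 : ℝ) + (-c0 * ((k : ℝ) + 1))) := by
      rw [Real.rpow_add (hn d), Real.rpow_one]
    rw [h2]
    congr 1
    rw [hγ]
    ring
  simp_rw [e]
  have hinf : Tendsto (fun d : ℕ => 2 * (2 : ℝ) ^ d) atTop atTop :=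
    Tendsto.const_mul_atTop (by norm_num : (0 : ℝ) < 2)
      (tendsto_pow_atTop_atTop_of_one_lt (by norm_num : (1 : ℝ) < 2))
  exact (tendsto_rpow_neg_atTop hγpos).comp hinf

/-! ### Interface for a combinatorial proof of a swap bound -/

open Classical in
/-- A partial injective re-routing: if `Φ` is injective on a set `S` of bit tables and turns the
permutation of every `cs ∈ S` into `permOf cs * σ`, then the swap distance of `σ` is at most the
probability of the complement of `S`. -/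
theorem swapDist_le_of_injOn (m t : ℕ) (σ : Equiv.Perm (Fin (2 * m)))
    (S : Finset (Fin t → Fin m → Bool))
    (Φ : (Fin t → Fin m → Bool) → (Fin t → Fin m → Bool))
    (hinj : Set.InjOn Φ (S : Set (Fin t → Fin m → Bool)))
    (hΦ : ∀ cs ∈ S, permOf m t (Φ cs) = permOf m t cs * σ) :
    swapDist m t σ ≤ ((Sᶜ).card : ℝ) / (2 : ℝ) ^ (m * t) := by
  have hTpos : (0 : ℝ) < (2 : ℝ) ^ (m * t) := two_pow_pos m t
  have hsplit : ∀ g : Equiv.Perm (Fin (2 * m)), fiberCard m t g =
      (S.filter (fun cs => permOf m t cs = g)).card +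
        (Sᶜ.filter (fun cs => permOf m t cs = g)).card := by
    intro g
    unfold fiberCard
    rw [← Finset.card_union_of_disjoint
      (Finset.disjoint_filter_filter disjoint_compl_right), ← Finset.filter_union,
      Finset.union_compl]
  have hge : ∀ g : Equiv.Perm (Fin (2 * m)),
      (S.filter (fun cs => permOf m t cs = g)).card ≤ fiberCard m t (g * σ) := by
    intro g
    unfold fiberCard
    apply Finset.card_le_card_of_injOn Φ
    · intro cs hcs
      have hcs' := Finset.mem_filter.mp (Finset.mem_coe.mp hcs)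
      apply Finset.mem_coe.mpr
      apply Finset.mem_filter.mpr
      refine ⟨Finset.mem_univ _, ?_⟩
      rw [hΦ cs hcs'.1, hcs'.2]
    · exact hinj.mono (fun cs hcs => Finset.mem_coe.mpr
        (Finset.mem_filter.mp (Finset.mem_coe.mp hcs)).1)
  have hpt : ∀ g : Equiv.Perm (Fin (2 * m)), law m t g - law m t (g * σ) ≤
      ((Sᶜ.filter (fun cs => permOf m t cs = g)).card : ℝ) / (2 : ℝ) ^ (m * t) := by
    intro g
    unfold law
    rw [hsplit g, ← sub_div]
    apply div_le_div_of_nonneg_right _ hTpos.le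
    have h' : ((S.filter (fun cs => permOf m t cs = g)).card : ℝ) ≤
        (fiberCard m t (g * σ) : ℝ) := by exact_mod_cast hge g
    push_cast
    linarith
  have hbad : ∑ g : Equiv.Perm (Fin (2 * m)),
      ((Sᶜ.filter (fun cs => permOf m t cs = g)).card : ℝ) = ((Sᶜ).card : ℝ) := by
    rw [← Nat.cast_sum]
    congr 1
    exact (Finset.card_eq_sum_card_fiberwise (f := permOf m t) (s := Sᶜ)
      (t := (Finset.univ : Finset (Equiv.Perm (Fin (2 * m)))))
      (fun _ _ => Finset.mem_univ _)).symm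
  have hsum0 : ∑ g : Equiv.Perm (Fin (2 * m)), (law m t (g * σ) - law m t g) = 0 := by
    have h0 : ∑ g : Equiv.Perm (Fin (2 * m)), law m t (g * σ) =
        ∑ g : Equiv.Perm (Fin (2 * m)), law m t g :=
      Equiv.sum_comp (Equiv.mulRight σ) (law m t)
    rw [Finset.sum_sub_distrib, h0, sub_self]
  have habs : ∀ g : Equiv.Perm (Fin (2 * m)), |law m t (g * σ) - law m t g| ≤
      (law m t (g * σ) - law m t g) +
        2 * (((Sᶜ.filter (fun cs => permOf m t cs = g)).card : ℝ) / (2 : ℝ) ^ (m * t)) := by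
    intro g
    have h1 := hpt g
    have h2 : (0 : ℝ) ≤
        ((Sᶜ.filter (fun cs => permOf m t cs = g)).card : ℝ) / (2 : ℝ) ^ (m * t) := by
      positivity
    rw [abs_le]
    constructor <;> linarith
  unfold swapDist rd
  calc (1 / 2) * ∑ g : Equiv.Perm (Fin (2 * m)), |law m t (g * σ) - law m t g|
      ≤ (1 / 2) * ∑ g : Equiv.Perm (Fin (2 * m)), ((law m t (g * σ) - law m t g) +
          2 * (((Sᶜ.filter (fun cs => permOf m t cs = g)).card : ℝ) / (2 : ℝ) ^ (m * t))) :=
        mul_le_mul_of_nonneg_left (Finset.sum_le_sum (fun g _ => habs g)) (by norm_num)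
    _ = ((Sᶜ).card : ℝ) / (2 : ℝ) ^ (m * t) := by
        rw [Finset.sum_add_distrib, hsum0, ← Finset.mul_sum, ← Finset.sum_div, hbad]
        ring

end Crest.Agent.Helper80.Shuffle
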